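import Vale.Agent.P217.Spec
import Vale.Agent.P217.Main

/-!
# P217: the invariant prime and radical ideals of the Lubin-Tate ring
-/

open Vale.Agent.P217

theorem Vale.Agent.Results.P217.InvariantPrimes.result :
    ∀ (p n : ℕ) [Fact p.Prime], 1 ≤ n →
    ∃ F : FormalGroup (E0 p n), F.IsComm ∧ Spec.HasHazewinkelLog p (u p n) F ∧
      Spec.IsUniversalDeformation (A := W p n) MvPowerSeries.constantCoeff F ∧
      nsmulSeries (F.map (residueMap p n)) p = PowerSeries.X ^ p ^ n ∧
      Spec.HasUniqueAction (W p n) (residueMap p n) F ∧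
      Spec.StableIdealsAre (W p n) (residueMap p n) (coefFrobenius p n) F n (heightIdeal p n) :=
  mainStatement'
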